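/-!
The computational core of the bit-mask certificates for the Snaky game: entries and their test,
written for fast evaluation in the kernel. No library is needed here. The soundness of the test is
proved in `Vale.Agent.Snaky.Cert`.
A cell with nonnegative coordinates `(x, y)`, `x < 64`, has the code `y * 64 + x`. All tests return a
natural number, and they pass when this number is `0`.
-/

namespace Vale.Agent.Snaky

/-- One certificate entry. `kind`: `0` Maker completes a copy, `1` Maker move, `2` Breaker node,
`3` and `4` reflected or rotated views of a Maker and a Breaker entry. -/
structure Ent where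
  kind : Nat
  depth : Nat
  M : Nat
  B : Nat
  U : Nat
  x : Nat

/-- Bits with `x` coordinate at least `32`, in the rows `y < 32`. -/
def guardG : Nat :=
  32317006063786617977917430647786889867906369439928774745874403061933612682200576450810216481426203250827948543126557362463291876111646222960360790085163651852238641429717120847798370265322261673906889097924268663692940257295126353200399956021066277899174676540581348497257723324380162489733907944315511759482739072698058393384635692285896212301876001058488500506831120565403102471120452564365415396618005887063102909747528554645081362840155633503159179847489820241277356288078525972093195870585301724764277428214574822136154041715694457110709920357539707654728889907475699213364849177130473778351627777064507057111040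

/-- The test of the shape of the masks of an entry. -/
def wfV (M B U : Nat) : Nat :=
  Nat.lor (Nat.xor M (Nat.land M U)) (Nat.lor (Nat.xor B (Nat.land B U))
    (Nat.lor (Nat.land U guardG) (Nat.shiftRight U 2048)))

/-- Reference test: the entry with fields `k d' m b u`, shifted by `s`, is applicable to the masks
`M B U` at depth `d`; the number `wm` holds the allowed kinds. -/
def rV (wm d M B U s k d' m b u : Nat) : Nat :=
  Nat.lor (Nat.xor (Nat.land (Nat.shiftRight wm k) 1) 1)
    (Nat.lor (Nat.sub d' d) (Nat.lor (Nat.land s 32)
      (Nat.lor (Nat.xor m (Nat.land m (Nat.shiftRight M s)))
        (Nat.lor (Nat.land (Nat.shiftRight B s) (Nat.xor u b))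
          (Nat.xor u (Nat.land u (Nat.shiftRight U s)))))))

/-- A reference `r` packs the index of an earlier entry and a shift. -/
noncomputable def rRef (tbl : Nat → Ent) (wm i d M B U r : Nat) : Nat :=
  Nat.lor (Nat.sub (Nat.succ (Nat.shiftRight r 12)) i)
    (Ent.rec (motive := fun _ => Nat)
      (fun k d' m b u _ => rV wm d M B U (Nat.land r 4095) k d' m b u)
      (tbl (Nat.shiftRight r 12)))

/-- Masks of the eight normalized orientations of Snaky. -/
def baseMask (o : Nat) : Nat :=
  match o with
  | 0 => 442721857769029238799
  | 1 => 276701161105643274264
  | 2 => 55340232221128654878
  | 3 => 553402322211286548483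
  | 4 => 231584178474632390865973275223535857998387619967825065790704055700723840581633
  | 5 => 115792089237316195429848086744074588617446056455769168919078654292030061019138
  | 6 => 115792089237316195442402290214847950145457917669105440214728293044316188704770
  | 7 => 231584178474632390859696173488149177234892112911538337838101968351838993383425
  | _ => 0

/-- Kind `0`: Maker completes the copy `U` by claiming the cell `x / 8`. -/
def chk0 (d M B U x : Nat) : Nat :=
  Nat.lor (Nat.sub 1 d) (Nat.lor (Nat.xor U (baseMask (Nat.land x 7)))
    (Nat.lor (Nat.xor (Nat.lor M (Nat.shiftLeft 1 (Nat.shiftRight x 3))) U) B))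

/-- Kind `1`: Maker claims the cell `x / 2 ^ 32` and answers by a Breaker entry. -/
noncomputable def chk1 (tbl : Nat → Ent) (i d M B U x : Nat) : Nat :=
  Nat.lor (Nat.sub 1 d)
    (Nat.lor (Nat.xor (Nat.land (Nat.shiftRight U (Nat.shiftRight x 32)) 1) 1)
      (Nat.lor (Nat.land (Nat.shiftRight M (Nat.shiftRight x 32)) 1)
        (Nat.lor (Nat.land (Nat.shiftRight B (Nat.shiftRight x 32)) 1)
          (rRef tbl 20 i (Nat.sub d 1) (Nat.lor M (Nat.shiftLeft 1 (Nat.shiftRight x 32))) B U
            (Nat.land x 4294967295)))))

/-- The loop of kind `2`: it reads `n` references from the stream `st`. The number `A` holds the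
Breaker replies that are not yet answered; a reply is answered by a reference when it lies outside
the zone of the referenced entry, apart from the Breaker cells of that entry. -/
noncomputable def k2Loop (tbl : Nat → Ent) (i d M B U n st A : Nat) : Nat :=
  Nat.rec (motive := fun _ => Nat → Nat → Nat) (fun _ A => A)
    (fun _ ih st A =>
      Nat.lor (Nat.sub (Nat.succ (Nat.shiftRight (Nat.land st 4294967295) 12)) i)
        (Ent.rec (motive := fun _ => Nat)
          (fun k d' m b u _ =>
            Nat.lor (rV 11 d M B U (Nat.land st 4095) k d' m b u)
              (ih (Nat.shiftRight st 32)
                (Nat.land A (Nat.shiftLeft (Nat.xor u b) (Nat.land st 4095)))))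
          (tbl (Nat.shiftRight (Nat.land st 4294967295) 12)))) n st A

/-- Kind `2`: a Breaker node. Its `x` holds the number of references and the references. -/
noncomputable def chk2 (tbl : Nat → Ent) (i d M B U x : Nat) : Nat :=
  Nat.lor (Nat.sub 1 (Nat.land x 255))
    (k2Loop tbl i d M B U (Nat.land x 255) (Nat.shiftRight x 8)
      (Nat.xor U (Nat.land U (Nat.lor M B))))

/-- The three masks of an entry packed in one number. -/
def pk (U M B : Nat) : Nat :=
  Nat.lor U (Nat.lor (Nat.shiftLeft M 4096) (Nat.shiftLeft B 8192))

/-- The bits of `pk` that describe one cell. -/
def pkK : Nat :=
  10907481356194159294629842447337828624482641619962326924318327861897213318491192952162642345252019872239572917961570252731098708201771840636109797650775547990789062988421929895386098252280482051596968516135916381967718865426093245601212905539018863010179002525357999172000100796000265358368009052978058809523505016301954756539110053123645600148474260352935512458439289187527686962793440880556175156943499454066778251408149006161059202564385045780133264935658360472424073824428122451315177575191648992263657437224322773680750276278830452065017927617009456991684972578796838517370499969009611205156550501155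612714914925153421057489666295470327863215057308284302216649703243961386352516264095161680054276234359963089216914461811874063953106654048857394348328774281674074953709935118687563599703901170218236167494586209698570062636120827067154081570665751372810270223109275649102767591605208783046324110493645687549209673229824591847634273837902724484380185269777649410727156115804346908274593399919614142427414105991174260605564837637563145276113626586283833686211579936380208785376755453367899156942344339556663150700872135354702556703120041307254958345083574396538289360770809785505789129679073527800549356215610907958451729541159729285242664091517125148958712696466291603286920109011972908780740651455525601831634171571832178768187480549279754406587443367151770918020924634380585008848507167312810012951294155233738712125934476179654428164303183216050224621740766909632044906030089726453154797454230915209139155483073787772837559366774221857800826252225495245287251931932553633903344084941122876114567760917522571951311657857497807578509509628774117624738457875424342115546534010024841837996391933802402796558781793621727952080943183249737847968047193283668842123008733720238108881281932028420750021973870315739998198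39945120993539574264224160947332699810578415047010810186021655945566632885707689009501147536282916602080099758535850360368895512559742188382761913745934359810281425188157675309184101841808526494861370176993435627049815650616917762173036050609931666088213893992651143646478405554422011131380883577612068998204968440154669537354907204154248133151520403401781427981134539816636532837968991034482001256194706546856056871520906907630308795217775001196611586332071959226375218562209541778303320282741284838864695246672954632100563808803901387930619960592509593247811698776961336852449536681416993278620073292600693727358206984023752240991214005878869983233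

/-- The code map of a view. -/
def gc (k1 k2 px py fx fy c : Nat) : Nat :=
  Nat.lor
    (Nat.shiftLeft (Nat.xor (Nat.add (Nat.land (Nat.shiftRight c k2) 31) py) fy) 6)
    (Nat.xor (Nat.add (Nat.land (Nat.shiftRight c k1) 31) px) fx)

/-- The test of a view at one bit `c` of the base entry. -/
def vP (k1 k2 px py fx fy Qb Qv c : Nat) : Nat :=
  Nat.xor (Nat.land (Nat.shiftRight Qv (gc k1 k2 px py fx fy c)) pkK)
    (Nat.land (Nat.shiftRight Qb c) pkK)

/-- Runs the test `P` on `f` cells, read from the stream `st`, and removes them from `m`; it returns
what remains of `m`. -/
noncomputable def vLoop (P : Nat → Nat) (f m st : Nat) : Nat :=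
  Nat.rec (motive := fun _ => Nat → Nat → Nat) (fun m _ => m)
    (fun _ ih m st => Nat.lor (P (Nat.land st 4095))
      (ih (Nat.xor m (Nat.shiftLeft 1 (Nat.land st 4095))) (Nat.shiftRight st 12))) f m st

/-- Kinds `3`, `4`: the entry is the image of an earlier one under an isometry. -/
noncomputable def chkV (tbl : Nat → Ent) (wm i d M B U x : Nat) : Nat :=
  Nat.lor (Nat.sub (Nat.succ (Nat.land (Nat.shiftRight x 21) 1048575)) i)
    (Ent.rec (motive := fun _ => Nat)
      (fun k d' m b u _ =>
        Nat.lor (Nat.xor (Nat.land (Nat.shiftRight wm k) 1) 1)
          (Nat.lor (Nat.sub d' d)
            (vLoop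
              (vP (Nat.mul (Nat.land x 1) 6) (Nat.xor (Nat.mul (Nat.land x 1) 6) 6)
                (Nat.land (Nat.shiftRight x 3) 31) (Nat.land (Nat.shiftRight x 8) 31)
                (Nat.mul (Nat.land (Nat.shiftRight x 1) 1) 31)
                (Nat.mul (Nat.land (Nat.shiftRight x 2) 1) 31)
                (pk u m b) (pk U M B))
              (Nat.land (Nat.shiftRight x 13) 255) u (Nat.shiftRight x 41))))
      (tbl (Nat.land (Nat.shiftRight x 21) 1048575)))

/-- The test selected by the kind. -/
noncomputable def chkK (tbl : Nat → Ent) (i k d M B U x : Nat) : Nat :=
  Nat.rec (motive := fun _ => Nat) (chk0 d M B U x)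
    (fun k _ => Nat.rec (motive := fun _ => Nat) (chk1 tbl i d M B U x)
      (fun k _ => Nat.rec (motive := fun _ => Nat) (chk2 tbl i d M B U x)
        (fun k _ => Nat.rec (motive := fun _ => Nat) (chkV tbl 11 i d M B U x)
          (fun k _ => Nat.rec (motive := fun _ => Nat) (chkV tbl 20 i d M B U x)
            (fun _ _ => 1) k) k) k) k) k

/-- Check of entry number `i`. -/
noncomputable def checkEnt (tbl : Nat → Ent) (i : Nat) : Nat :=
  Ent.rec (motive := fun _ => Nat)
    (fun k d M B U x => Nat.lor (wfV M B U) (chkK tbl i k d M B U x)) (tbl i)

/-- Consecutive entries are checked by a recursion on their number. -/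
noncomputable def checkRange (tbl : Nat → Ent) (lo n : Nat) : Nat :=
  Nat.rec (motive := fun _ => Nat → Nat) (fun _ => 0)
    (fun _ ih lo => Nat.lor (checkEnt tbl lo) (ih (Nat.succ lo))) n lo

/-- A binary tree of entries. -/
inductive T where
  | leaf (e : Ent) : T
  | node (l r : T) : T

/-- Look-up in a tree by the bits of the index, lowest first. -/
noncomputable def T.get (t : T) (i : Nat) : Ent :=
  T.rec (motive := fun _ => Nat → Ent) (fun e _ => e)
    (fun _ _ il ir i => Bool.rec (il (Nat.shiftRight i 1)) (ir (Nat.shiftRight i 1))
      (Nat.beq (Nat.land i 1) 1)) t i

/-- A binary tree of blocks of entries. -/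
inductive T2 where
  | leaf (t : T) : T2
  | node (l r : T2) : T2

/-- Look-up in a tree of blocks, by the bits of the index, lowest first. -/
noncomputable def T2.get (t : T2) (i : Nat) : T :=
  T2.rec (motive := fun _ => Nat → T) (fun e _ => e)
    (fun _ _ il ir i => Bool.rec (il (Nat.shiftRight i 1)) (ir (Nat.shiftRight i 1))
      (Nat.beq (Nat.land i 1) 1)) t i

/-- All entries in a range pass their test. -/
def RangeOK (tbl : Nat → Ent) (lo n : Nat) : Prop :=
  ∀ i, lo ≤ i → i < lo + n → checkEnt tbl i = 0

theorem lor_eq_zero {a b : Nat} (h : Nat.lor a b = 0) : a = 0 ∧ b = 0 := by
  have h' : a ||| b = 0 := h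
  exact Nat.or_eq_zero_iff.mp h'

theorem checkRange_spec {tbl : Nat → Ent} : ∀ (n lo : Nat), checkRange tbl lo n = 0 →
    ∀ i, lo ≤ i → i < lo + n → checkEnt tbl i = 0
  | 0, _, _, i, h1, h2 => by omega
  | n + 1, lo, h, i, h1, h2 => by
    have h0 : checkRange tbl lo (n + 1) =
      Nat.lor (checkEnt tbl lo) (checkRange tbl (Nat.succ lo) n) := rfl
    rw [h0] at h
    obtain ⟨h3, h4⟩ := lor_eq_zero h
    by_cases hi : i = lo
    · rw [hi]; exact h3
    · exact checkRange_spec n (Nat.succ lo) h4 i (by omega) (by omega)

theorem RangeOK.of_check {tbl : Nat → Ent} {lo n : Nat} (h : checkRange tbl lo n = 0) :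
    RangeOK tbl lo n := checkRange_spec n lo h

theorem RangeOK.join {tbl : Nat → Ent} {a b c d : Nat} (h1 : RangeOK tbl a b)
    (h2 : RangeOK tbl c d) (hc : a + b = c) : RangeOK tbl a (b + d) := by
  intro i h3 h4
  by_cases hi : i < a + b
  · exact h1 i h3 hi
  · exact h2 i (by omega) (by omega)

end Vale.Agent.Snaky
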